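import Mathlib

set_option autoImplicit false

open Finset

namespace Vale.Agent.Results.P047.ConicalBound

/-- The coordinate character: `true` is `1`, `false` is `-1`. -/
noncomputable def sg {n : ℕ} (x : Fin n → Bool) (i : Fin n) : ℝ := if x i then 1 else -1

/-- The indicator of the subcube with coordinates `P` fixed to `true` and `Q` fixed to `false`. -/
noncomputable def cube {n : ℕ} (P Q : Finset (Fin n)) (x : Fin n → Bool) : ℝ :=
  if (∀ i ∈ P, x i = true) ∧ (∀ i ∈ Q, x i = false) then 1 else 0

/-- The product weight of bias `t`. -/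
noncomputable def wt {n : ℕ} (t : ℝ) (x : Fin n → Bool) : ℝ := ∏ i, (1 + t * sg x i)

lemma sum_prod {n : ℕ} (u : Fin n → Bool → ℝ) :
    ∑ x : Fin n → Bool, ∏ i, u i (x i) = ∏ i, (u i true + u i false) := by
  have h := (Finset.prod_univ_sum (fun _ : Fin n => (Finset.univ : Finset Bool)) u).symm
  rw [Fintype.piFinset_univ] at h
  rw [h]
  refine Finset.prod_congr rfl (fun i _ => ?_)
  rw [Fintype.sum_bool]

noncomputable def kap {n : ℕ} (P Q : Finset (Fin n)) (t : ℝ) (i : Fin n) (b : Bool) : ℝ :=
  (if i ∈ P then (if b then 1 else 0) else if i ∈ Q then (if b then 0 else 1) else 1)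
    * (1 + t * (if b then 1 else -1))

lemma cube_wt {n : ℕ} (P Q : Finset (Fin n)) (h : Disjoint P Q) (t : ℝ)
    (x : Fin n → Bool) :
    cube P Q x * wt t x = ∏ i, kap P Q t i (x i) := by
  unfold cube wt kap
  rw [Finset.prod_mul_distrib]
  have : (∏ i, (if i ∈ P then (if x i then (1 : ℝ) else 0)
        else if i ∈ Q then (if x i then 0 else 1) else 1))
      = if (∀ i ∈ P, x i = true) ∧ (∀ i ∈ Q, x i = false) then 1 else 0 := by
    split_ifs with hc
    · refine Finset.prod_eq_one (fun i _ => ?_)
      by_cases hP : i ∈ P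
      · simp [hP, hc.1 i hP]
      · by_cases hQ : i ∈ Q
        · simp [hP, hQ, hc.2 i hQ]
        · simp [hP, hQ]
    · have : ∃ i, (i ∈ P ∧ x i = false) ∨ (i ∈ Q ∧ x i = true) := by
        by_contra hno
        push Not at hno
        apply hc
        constructor
        · intro i hi
          have := (hno i).1 hi
          simpa using this
        · intro i hi
          have := (hno i).2 hi
          simpa using this
      obtain ⟨i, hi⟩ := this
      refine Finset.prod_eq_zero (Finset.mem_univ i) ?_
      rcases hi with ⟨hP, hx⟩ | ⟨hQ, hx⟩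
      · simp [hP, hx]
      · have hP : i ∉ P := fun hp => (Finset.disjoint_left.mp h hp) hQ
        simp [hP, hQ, hx]
  rw [this]
  rfl

/-- The bias-`t` measure of a subcube. -/
lemma sum_cube_wt {n : ℕ} (P Q : Finset (Fin n)) (h : Disjoint P Q) (t : ℝ) :
    ∑ x, cube P Q x * wt t x
      = 2 ^ n * ((1 / 2 : ℝ) ^ (P.card + Q.card) * ((1 + t) ^ P.card * (1 - t) ^ Q.card)) := by
  have h1 : ∑ x, cube P Q x * wt t x = ∏ i, (kap P Q t i true + kap P Q t i false) := by
    rw [← sum_prod]
    exact Finset.sum_congr rfl (fun x _ => cube_wt P Q h t x)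
  rw [h1]
  have h2 : ∀ i, kap P Q t i true + kap P Q t i false
      = 2 * ((if i ∈ P then ((1 + t) / 2) else 1) * (if i ∈ Q then ((1 - t) / 2) else 1)) := by
    intro i
    by_cases hP : i ∈ P
    · have hQ : i ∉ Q := fun hq => (Finset.disjoint_left.mp h hP) hq
      simp [kap, hP, hQ]; ring
    · by_cases hQ : i ∈ Q
      · simp [kap, hP, hQ]; ring
      · simp [kap, hP, hQ]; ring
  rw [Finset.prod_congr rfl (fun i _ => h2 i), Finset.prod_mul_distrib, Finset.prod_mul_distrib]
  have h3 : ∏ i : Fin n, (if i ∈ P then ((1 + t) / 2) else 1) = ((1 + t) / 2) ^ P.card := by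
    rw [Finset.prod_ite_mem, Finset.univ_inter, Finset.prod_const]
  have h4 : ∏ i : Fin n, (if i ∈ Q then ((1 - t) / 2) else 1) = ((1 - t) / 2) ^ Q.card := by
    rw [Finset.prod_ite_mem, Finset.univ_inter, Finset.prod_const]
  rw [h3, h4]
  simp only [Finset.prod_const, Finset.card_univ, Fintype.card_fin, div_pow, pow_add, one_pow]
  field_simp

lemma wt_nonneg {n : ℕ} {t : ℝ} (h1 : -1 ≤ t) (h2 : t ≤ 1) (x : Fin n → Bool) : 0 ≤ wt t x := by
  refine Finset.prod_nonneg (fun i _ => ?_)
  unfold sg
  cases x i <;> simp <;> linarith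

lemma sum_wt {n : ℕ} (t : ℝ) : ∑ x : Fin n → Bool, wt t x = 2 ^ n := by
  have := sum_prod (n := n) (fun _ b => 1 + t * (if b then 1 else -1))
  unfold wt sg
  rw [this]
  simp only [if_true, Bool.false_eq_true, if_false, Finset.prod_const, Finset.card_univ,
    Fintype.card_fin]
  congr 1
  ring

/-- Flip the coordinate `i`. -/
def flip {n : ℕ} (i : Fin n) (x : Fin n → Bool) : Fin n → Bool := Function.update x i (!x i)

lemma flip_flip {n : ℕ} (i : Fin n) (x : Fin n → Bool) : flip i (flip i x) = x := by
  funext j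
  by_cases h : j = i
  · subst h; simp [flip]
  · simp [flip, Function.update_of_ne h]

lemma sum_flip_zero {n : ℕ} (i : Fin n) (F : (Fin n → Bool) → ℝ)
    (hF : ∀ x, F (flip i x) = - F x) : ∑ x, F x = 0 := by
  have h : ∑ x, F x = ∑ x, F (flip i x) := by
    refine (Equiv.sum_comp ⟨flip i, flip i, flip_flip i, flip_flip i⟩ F).symm
  have h2 : ∑ x, F (flip i x) = - ∑ x, F x := by
    rw [← Finset.sum_neg_distrib]
    exact Finset.sum_congr rfl (fun x _ => hF x)
  linarith

lemma sg_flip_self {n : ℕ} (i : Fin n) (x : Fin n → Bool) : sg (flip i x) i = - sg x i := by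
  unfold sg flip
  cases x i <;> simp

lemma sum_sg {n : ℕ} (i : Fin n) : ∑ x : Fin n → Bool, sg x i = 0 :=
  sum_flip_zero i _ (fun x => sg_flip_self i x)

/-- The mass of a subcube. -/
lemma sum_cube {n : ℕ} (P Q : Finset (Fin n)) (h : Disjoint P Q) :
    ∑ x, cube P Q x = 2 ^ n * (1 / 2 : ℝ) ^ (P.card + Q.card) := by
  have := sum_cube_wt P Q h 0
  simp only [wt, zero_mul, add_zero, Finset.prod_const_one, mul_one, one_pow, sub_zero] at this
  exact this

/-- The level-one sum of a subcube. -/
lemma sum_cube_sg {n : ℕ} (P Q : Finset (Fin n)) (h : Disjoint P Q) :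
    ∑ i, ∑ x, cube P Q x * sg x i
      = 2 ^ n * ((1 / 2 : ℝ) ^ (P.card + Q.card) * ((P.card : ℝ) - Q.card)) := by
  have hi : ∀ i, ∑ x, cube P Q x * sg x i
      = (if i ∈ P then 2 ^ n * (1 / 2 : ℝ) ^ (P.card + Q.card) else 0)
        - (if i ∈ Q then 2 ^ n * (1 / 2 : ℝ) ^ (P.card + Q.card) else 0) := by
    intro i
    by_cases hP : i ∈ P
    · have hQ : i ∉ Q := fun hq => (Finset.disjoint_left.mp h hP) hq
      simp only [hP, hQ, if_true, if_false, sub_zero]
      rw [← sum_cube P Q h]
      refine Finset.sum_congr rfl (fun x _ => ?_)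
      unfold cube sg
      split_ifs with h1 h2 h2
      · simp
      · exact absurd (h1.1 i hP) h2
      · simp
      · simp
    · by_cases hQ : i ∈ Q
      · simp only [hP, hQ, if_true, if_false, zero_sub]
        rw [← sum_cube P Q h, ← Finset.sum_neg_distrib]
        refine Finset.sum_congr rfl (fun x _ => ?_)
        unfold cube sg
        split_ifs with h1 h2 h2
        · have := h1.2 i hQ
          simp [this] at h2
        · simp
        · simp
        · simp
      · simp only [hP, hQ, if_false, sub_zero]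
        refine sum_flip_zero i _ (fun x => ?_)
        have : cube P Q (flip i x) = cube P Q x := by
          unfold cube flip
          have e1 : (∀ j ∈ P, Function.update x i (!x i) j = true) ↔ (∀ j ∈ P, x j = true) := by
            refine forall₂_congr (fun j hj => ?_)
            have : j ≠ i := fun e => hP (e ▸ hj)
            simp [Function.update_of_ne this]
          have e2 : (∀ j ∈ Q, Function.update x i (!x i) j = false) ↔ (∀ j ∈ Q, x j = false) := by
            refine forall₂_congr (fun j hj => ?_)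
            have : j ≠ i := fun e => hQ (e ▸ hj)
            simp [Function.update_of_ne this]
          simp only [e1, e2]
        rw [this, sg_flip_self]
        ring
  calc ∑ i, ∑ x, cube P Q x * sg x i
      = ∑ i, ((if i ∈ P then 2 ^ n * (1 / 2 : ℝ) ^ (P.card + Q.card) else 0)
        - (if i ∈ Q then 2 ^ n * (1 / 2 : ℝ) ^ (P.card + Q.card) else 0)) :=
        Finset.sum_congr rfl (fun i _ => hi i)
    _ = _ := by
        rw [Finset.sum_sub_distrib, Finset.sum_ite_mem, Finset.sum_ite_mem]
        simp
        ring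

/-- The hyperbolic lower bound for the bias weight of a subcube. -/
lemma tanh_bound (p q : ℕ) (r : ℝ) :
    Real.exp (((p : ℝ) - q) * r - ((p : ℝ) + q) * (r ^ 2 / 2))
      ≤ (1 + Real.tanh r) ^ p * (1 - Real.tanh r) ^ q := by
  have hc : 0 < Real.cosh r := Real.cosh_pos r
  have hup : Real.cosh r ≤ Real.exp (r ^ 2 / 2) := Real.cosh_le_exp_half_sq r
  have h1 : Real.exp (r - r ^ 2 / 2) ≤ 1 + Real.tanh r := by
    have : 1 + Real.tanh r = Real.exp r / Real.cosh r := by
      rw [Real.tanh_eq_sinh_div_cosh, ← Real.cosh_add_sinh]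
      field_simp
    rw [this, Real.exp_sub, div_le_div_iff₀ (Real.exp_pos _) hc]
    exact mul_le_mul_of_nonneg_left hup (Real.exp_pos _).le
  have h2 : Real.exp (-r - r ^ 2 / 2) ≤ 1 - Real.tanh r := by
    have : 1 - Real.tanh r = Real.exp (-r) / Real.cosh r := by
      rw [Real.tanh_eq_sinh_div_cosh, ← Real.cosh_sub_sinh]
      field_simp
    rw [this, Real.exp_sub, div_le_div_iff₀ (Real.exp_pos _) hc]
    exact mul_le_mul_of_nonneg_left hup (Real.exp_pos _).le
  have h3 := pow_le_pow_left₀ (Real.exp_pos _).le h1 p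
  have h4 := pow_le_pow_left₀ (Real.exp_pos _).le h2 q
  rw [← Real.exp_nat_mul] at h3 h4
  have h5 := mul_le_mul h3 h4 (Real.exp_pos _).le (le_trans (Real.exp_pos _).le h3)
  rw [← Real.exp_add] at h5
  have e : ((p : ℝ) - q) * r - ((p : ℝ) + q) * (r ^ 2 / 2)
      = (p : ℝ) * (r - r ^ 2 / 2) + (q : ℝ) * (-r - r ^ 2 / 2) := by ring
  rw [e]
  exact h5

/-- The elementary maximum of `α² log (1/α)`. -/
lemma key_alpha (α : ℝ) (hαpos : 0 < α) : α ^ 2 * (2 * Real.log (1 / α)) ≤ Real.exp (-1) := by
  have hβ : 0 < 1 / α ^ 2 := by positivity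
  have h1 := Real.log_le_sub_one_of_pos (mul_pos hβ (Real.exp_pos (-1)))
  rw [Real.log_mul hβ.ne' (Real.exp_pos _).ne', Real.log_exp] at h1
  have h2 : Real.log (1 / α ^ 2) = 2 * Real.log (1 / α) := by
    have : 1 / α ^ 2 = (1 / α) ^ 2 := by rw [div_pow, one_pow]
    rw [this, Real.log_pow]
    norm_num
  rw [h2] at h1
  have h3 : 2 * Real.log (1 / α) ≤ 1 / α ^ 2 * Real.exp (-1) := by linarith
  calc α ^ 2 * (2 * Real.log (1 / α)) ≤ α ^ 2 * (1 / α ^ 2 * Real.exp (-1)) :=
        mul_le_mul_of_nonneg_left h3 (by positivity)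
    _ = Real.exp (-1) := by field_simp

/-- Let `f` be a Boolean function such that the indicator of `{f = 1}` is a nonnegative combination
`∑ j, w j • 1_{C j}` of indicators of subcubes `C j` (coordinates `P j` fixed to `true`, `Q j` fixed
to `false`), of codimension `|P j| + |Q j| ≤ N`.  Then the level-one sum of `f` is at most
`2 * exp (-1/2) * √N`.  More precisely it is at most `√(8 * α * M * log (1/α))`, where `α` is the
measure of `{f = 1}` and `M = ∑ j, w j * 2^(-codim j) * codim j`. -/
theorem result (n N : ℕ) (f : (Fin n → Bool) → ℝ) (hf : ∀ x, f x = 1 ∨ f x = -1)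
    {ι : Type} [Fintype ι] (P Q : ι → Finset (Fin n)) (hPQ : ∀ j, Disjoint (P j) (Q j))
    (w : ι → ℝ) (hw : ∀ j, 0 ≤ w j)
    (hN : ∀ j, (P j).card + (Q j).card ≤ N)
    (hrep : ∀ x, (f x + 1) / 2 = ∑ j, w j *
      (if (∀ i ∈ P j, x i = true) ∧ (∀ i ∈ Q j, x i = false) then 1 else 0)) :
    (∑ i, (∑ x, f x * (if x i then (1 : ℝ) else -1)) / 2 ^ n
      ≤ Real.sqrt (8 * ((∑ x, (f x + 1) / 2) / 2 ^ n)
          * (∑ j, w j * (1 / 2 : ℝ) ^ ((P j).card + (Q j).card) * ((P j).card + (Q j).card : ℝ))
          * Real.log (1 / ((∑ x, (f x + 1) / 2) / 2 ^ n)))) ∧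
    ∑ i, (∑ x, f x * (if x i then (1 : ℝ) else -1)) / 2 ^ n
      ≤ 2 * Real.exp (-1 / 2) * Real.sqrt N := by
  classical
  have hpow : (0 : ℝ) < 2 ^ n := by positivity
  set c : ι → ℝ := fun j => ((P j).card + (Q j).card : ℝ) with hc
  set a : ι → ℝ := fun j => ((P j).card : ℝ) - (Q j).card with ha
  set π : ι → ℝ := fun j => w j * (1 / 2 : ℝ) ^ ((P j).card + (Q j).card) with hπ
  have hπ0 : ∀ j, 0 ≤ π j := fun j => mul_nonneg (hw j) (by positivity)
  set g : (Fin n → Bool) → ℝ := fun x => (f x + 1) / 2 with hg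
  have hg01 : ∀ x, 0 ≤ g x ∧ g x ≤ 1 := by
    intro x
    rcases hf x with h | h <;> simp [hg, h]
  have hgrep : ∀ x, g x = ∑ j, w j * cube (P j) (Q j) x := fun x => hrep x
  set α : ℝ := (∑ x, g x) / 2 ^ n with hα
  have hαsum : α = ∑ j, π j := by
    rw [hα, div_eq_iff hpow.ne', Finset.sum_mul]
    calc ∑ x, g x = ∑ x, ∑ j, w j * cube (P j) (Q j) x :=
          Finset.sum_congr rfl (fun x _ => hgrep x)
      _ = ∑ j, ∑ x, w j * cube (P j) (Q j) x := Finset.sum_comm
      _ = ∑ j, π j * 2 ^ n := by
          refine Finset.sum_congr rfl (fun j _ => ?_)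
          rw [← Finset.mul_sum, sum_cube (P j) (Q j) (hPQ j), hπ]
          ring
  -- the master inequality
  have hmaster : ∀ t : ℝ, -1 ≤ t → t ≤ 1 →
      ∑ j, π j * ((1 + t) ^ (P j).card * (1 - t) ^ (Q j).card) ≤ 1 := by
    intro t h1 h2
    have e : ∑ x, g x * wt t x = 2 ^ n * ∑ j, π j * ((1 + t) ^ (P j).card * (1 - t) ^ (Q j).card) := by
      calc ∑ x, g x * wt t x = ∑ x, ∑ j, w j * (cube (P j) (Q j) x * wt t x) := by
            refine Finset.sum_congr rfl (fun x _ => ?_)
            rw [hgrep x, Finset.sum_mul]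
            exact Finset.sum_congr rfl (fun j _ => by ring)
        _ = ∑ j, ∑ x, w j * (cube (P j) (Q j) x * wt t x) := Finset.sum_comm
        _ = _ := by
            rw [Finset.mul_sum]
            refine Finset.sum_congr rfl (fun j _ => ?_)
            rw [← Finset.mul_sum, sum_cube_wt (P j) (Q j) (hPQ j) t, hπ]
            ring
    have le : ∑ x, g x * wt t x ≤ 2 ^ n := by
      calc ∑ x, g x * wt t x ≤ ∑ x, wt t x := by
            refine Finset.sum_le_sum (fun x _ => ?_)
            have := wt_nonneg h1 h2 x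
            nlinarith [(hg01 x).2]
        _ = 2 ^ n := sum_wt t
    rw [e] at le
    have := (mul_le_mul_iff_of_pos_left hpow).mp (by simpa using le : 2 ^ n * _ ≤ 2 ^ n * (1 : ℝ))
    exact this
  -- level-one sum
  set A : ℝ := ∑ j, π j * a j with hA
  have hV : ∑ i, (∑ x, f x * (if x i then (1 : ℝ) else -1)) / 2 ^ n = 2 * A := by
    have hfx : ∀ i, ∑ x, f x * (if x i then (1 : ℝ) else -1) = 2 * ∑ x, g x * sg x i := by
      intro i
      have : ∀ x, f x * (if x i then (1 : ℝ) else -1) = 2 * (g x * sg x i) - sg x i := by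
        intro x; simp only [hg, sg]; ring
      rw [Finset.sum_congr rfl (fun x _ => this x), Finset.sum_sub_distrib, sum_sg i, sub_zero,
        Finset.mul_sum]
    have h2 : ∑ i, ∑ x, g x * sg x i = 2 ^ n * A := by
      calc ∑ i, ∑ x, g x * sg x i = ∑ i, ∑ x, ∑ j, w j * (cube (P j) (Q j) x * sg x i) := by
            refine Finset.sum_congr rfl (fun i _ => Finset.sum_congr rfl (fun x _ => ?_))
            rw [hgrep x, Finset.sum_mul]
            exact Finset.sum_congr rfl (fun j _ => by ring)
        _ = ∑ j, w j * ∑ i, ∑ x, cube (P j) (Q j) x * sg x i := by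
            rw [Finset.sum_congr rfl (fun i _ => Finset.sum_comm), Finset.sum_comm]
            refine Finset.sum_congr rfl (fun j _ => ?_)
            rw [Finset.mul_sum]
            refine Finset.sum_congr rfl (fun i _ => ?_)
            rw [Finset.mul_sum]
        _ = 2 ^ n * A := by
            rw [hA, Finset.mul_sum]
            refine Finset.sum_congr rfl (fun j _ => ?_)
            rw [sum_cube_sg (P j) (Q j) (hPQ j), hπ, ha]
            ring
    rw [← Finset.sum_div, Finset.sum_congr rfl (fun i _ => hfx i), ← Finset.mul_sum, h2]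
    field_simp
  set M : ℝ := ∑ j, π j * c j with hM
  have hMnn : 0 ≤ M := Finset.sum_nonneg (fun j _ => mul_nonneg (hπ0 j) (by simp [hc]; positivity))
  have hMle : M ≤ α * N := by
    rw [hαsum, Finset.sum_mul, hM]
    refine Finset.sum_le_sum (fun j _ => mul_le_mul_of_nonneg_left ?_ (hπ0 j))
    have := hN j
    simp only [hc]
    exact_mod_cast this
  have hαnn : 0 ≤ α := by rw [hαsum]; exact Finset.sum_nonneg (fun j _ => hπ0 j)
  have hαle : α ≤ 1 := by
    have := hmaster 0 (by norm_num) (by norm_num)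
    simpa [hαsum] using this
  -- main bound on A
  have hmain : A ≤ 0 ∨ (A ^ 2 ≤ 2 * (α * Real.log (1 / α)) * M ∧ 0 < α) := by
    by_cases hα0 : α = 0
    · left
      have hall : ∀ j, π j = 0 := by
        have h0 : ∑ j, π j = 0 := by rw [← hαsum]; exact hα0
        intro j
        exact (Finset.sum_eq_zero_iff_of_nonneg (fun j _ => hπ0 j)).mp h0 j (Finset.mem_univ j)
      simp [hA, hall]
    have hαpos : 0 < α := lt_of_le_of_ne hαnn (Ne.symm hα0)
    by_cases hApos : A ≤ 0
    · exact Or.inl hApos
    · right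
      push Not at hApos
      have hL : 0 ≤ Real.log (1 / α) := Real.log_nonneg (by
        rw [le_div_iff₀ hαpos]; linarith)
      -- the inequality for every r
      have hr : ∀ r : ℝ, A * r - M * (r ^ 2 / 2) ≤ α * Real.log (1 / α) := by
        intro r
        set c₀ : ℝ := Real.log (1 / α) with hc₀
        have hexp : Real.exp c₀ = 1 / α := Real.exp_log (by positivity)
        have hterm : ∀ j, π j * ((1 / α) * (1 + (a j * r - c j * (r ^ 2 / 2)) - c₀))
            ≤ π j * ((1 + Real.tanh r) ^ (P j).card * (1 - Real.tanh r) ^ (Q j).card) := by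
          intro j
          refine mul_le_mul_of_nonneg_left ?_ (hπ0 j)
          have h1 := tanh_bound (P j).card (Q j).card r
          have h2 := Real.add_one_le_exp (a j * r - c j * (r ^ 2 / 2) - c₀)
          have h3 : Real.exp (a j * r - c j * (r ^ 2 / 2) - c₀) * Real.exp c₀
              = Real.exp (((P j).card - (Q j).card : ℝ) * r
                  - ((P j).card + (Q j).card : ℝ) * (r ^ 2 / 2)) := by
            rw [← Real.exp_add]
            congr 1
            simp only [ha, hc]
            ring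
          calc (1 / α) * (1 + (a j * r - c j * (r ^ 2 / 2)) - c₀)
              = ((a j * r - c j * (r ^ 2 / 2) - c₀) + 1) * Real.exp c₀ := by rw [hexp]; ring
            _ ≤ Real.exp (a j * r - c j * (r ^ 2 / 2) - c₀) * Real.exp c₀ :=
                mul_le_mul_of_nonneg_right h2 (Real.exp_pos _).le
            _ = _ := h3
            _ ≤ _ := h1
        have hsum := Finset.sum_le_sum (fun j (_ : j ∈ Finset.univ) => hterm j)
        have htm := hmaster (Real.tanh r) (by
          have := Real.neg_one_lt_tanh r; linarith) (by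
          have := Real.tanh_lt_one r; linarith)
        have hle := le_trans hsum htm
        have hexpand : ∑ j, π j * ((1 / α) * (1 + (a j * r - c j * (r ^ 2 / 2)) - c₀))
            = (1 / α) * (α + (A * r - M * (r ^ 2 / 2)) - α * c₀) := by
          have e : ∀ j, π j * ((1 / α) * (1 + (a j * r - c j * (r ^ 2 / 2)) - c₀))
              = (1 / α) * (π j + (π j * a j) * r - (π j * c j) * (r ^ 2 / 2) - π j * c₀) :=
            fun j => by ring
          rw [Finset.sum_congr rfl (fun j _ => e j), ← Finset.mul_sum, Finset.sum_sub_distrib,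
            Finset.sum_sub_distrib, Finset.sum_add_distrib, ← Finset.sum_mul, ← Finset.sum_mul,
            ← Finset.sum_mul, ← hαsum, ← hA, ← hM]
          ring
        rw [hexpand] at hle
        have := (mul_le_mul_iff_of_pos_left hαpos).mpr hle
        rw [← mul_assoc, mul_one_div_cancel hαpos.ne', one_mul, mul_one] at this
        linarith
      have hMpos : 0 < M := by
        rcases hMnn.lt_or_eq with h | h
        · exact h
        · exfalso
          have := hr ((α * Real.log (1 / α) + 1) / A)
          rw [← h] at this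
          have e : A * ((α * Real.log (1 / α) + 1) / A) = α * Real.log (1 / α) + 1 := by
            field_simp
          rw [e] at this
          linarith
      refine ⟨?_, hαpos⟩
      have := hr (A / M)
      have e : A * (A / M) - M * ((A / M) ^ 2 / 2) = A ^ 2 / (2 * M) := by
        field_simp
        ring
      rw [e, div_le_iff₀ (by positivity)] at this
      linarith
  rw [hV]
  constructor
  · rcases hmain with h | ⟨h, _⟩
    · have : (0 : ℝ) ≤ Real.sqrt (8 * α * M * Real.log (1 / α)) := Real.sqrt_nonneg _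
      linarith
    · apply Real.le_sqrt_of_sq_le
      nlinarith
  · rcases hmain with h | ⟨h, hαpos⟩
    · have : (0 : ℝ) ≤ 2 * Real.exp (-1 / 2) * Real.sqrt N := by positivity
      linarith
    · have hL : 0 ≤ Real.log (1 / α) := Real.log_nonneg (by
        rw [le_div_iff₀ hαpos]; linarith)
      have hkey : α ^ 2 * (2 * Real.log (1 / α)) ≤ Real.exp (-1) := key_alpha α hαpos
      have hNnn : (0 : ℝ) ≤ N := by positivity
      have hA2 : A ^ 2 ≤ N * Real.exp (-1) := by
        calc A ^ 2 ≤ 2 * (α * Real.log (1 / α)) * M := h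
          _ ≤ 2 * (α * Real.log (1 / α)) * (α * N) :=
              mul_le_mul_of_nonneg_left hMle (by positivity)
          _ = N * (α ^ 2 * (2 * Real.log (1 / α))) := by ring
          _ ≤ N * Real.exp (-1) := mul_le_mul_of_nonneg_left hkey hNnn
      have hA3 : A ≤ Real.sqrt (N * Real.exp (-1)) := Real.le_sqrt_of_sq_le hA2
      rw [Real.sqrt_mul hNnn, ← Real.exp_half] at hA3
      nlinarith

end Vale.Agent.Results.P047.ConicalBound
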