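import Vale.Agent.Lib.P047_Main

/-- Every Boolean function `f` on the cube with Fourier degree at most `d`, `d ≥ 3`, has
level-one sum at most `(19 / 20) * d`. The cube is `Fin n → Bool` with `true = 1`, `false = -1`. -/
theorem Vale.Agent.Results.P047.LinearBound.result (n d : ℕ) (hd : 3 ≤ d)
    (f : (Fin n → Bool) → ℝ) (hf : ∀ x, f x = 1 ∨ f x = -1)
    (hdeg : ∀ S : Finset (Fin n), d < S.card →
      ∑ x, f x * ∏ i ∈ S, (if x i then (1 : ℝ) else -1) = 0) :
    ∑ i, (∑ x, f x * (if x i then (1 : ℝ) else -1)) / 2 ^ n ≤ (19 / 20) * d := by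
  have h := Vale.Agent.P047.final_bound f d hd hf (fun S hS => by
    have := hdeg S hS
    unfold Vale.Agent.P047.hat Vale.Agent.P047.chi Vale.Agent.P047.sg
    rw [this]; simp)
  simpa [Vale.Agent.P047.hat, Vale.Agent.P047.chi, Vale.Agent.P047.sg] using h
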