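import Mathlib

set_option autoImplicit false

open Finset

namespace Vale.Agent.Results.P047.PartitionBound

/-- The coordinate character: `true` is `1`, `false` is `-1`. -/
noncomputable def sg {n : ℕ} (x : Fin n → Bool) (i : Fin n) : ℝ := if x i then 1 else -1

/-- Flip the coordinate `i`. -/
def flip {n : ℕ} (i : Fin n) (x : Fin n → Bool) : Fin n → Bool := Function.update x i (!x i)

lemma flip_flip {n : ℕ} (i : Fin n) (x : Fin n → Bool) : flip i (flip i x) = x := by
  funext j
  by_cases h : j = i
  · subst h; simp [flip]
  · simp [flip, Function.update_of_ne h]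

lemma sg_flip_self {n : ℕ} (i : Fin n) (x : Fin n → Bool) : sg (flip i x) i = - sg x i := by
  unfold sg flip
  cases x i <;> simp

lemma sg_flip_ne {n : ℕ} {i k : Fin n} (h : k ≠ i) (x : Fin n → Bool) :
    sg (flip i x) k = sg x k := by
  unfold sg flip
  simp [Function.update_of_ne h]

lemma flip_ne {n : ℕ} (i : Fin n) (x : Fin n → Bool) : flip i x ≠ x := by
  intro h
  have := congrFun h i
  simp [flip] at this

/-- A sum over the cube that changes sign under a flip which preserves the support vanishes. -/
lemma sum_flip_zero {n : ℕ} (i : Fin n) (F : (Fin n → Bool) → ℝ)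
    (hF : ∀ x, F (flip i x) = - F x) : ∑ x, F x = 0 := by
  have h : ∑ x, F x = ∑ x, F (flip i x) := by
    refine (Equiv.sum_comp ⟨flip i, flip i, flip_flip i, flip_flip i⟩ F).symm
  have h2 : ∑ x, F (flip i x) = - ∑ x, F x := by
    rw [← Finset.sum_neg_distrib]
    exact Finset.sum_congr rfl (fun x _ => hF x)
  linarith

/-- Let `f` be a Boolean function and let `Fix` assign to every point `x` of the cube a set of
coordinates such that flipping a coordinate outside `Fix x` changes neither `Fix x` nor `f x`
(equivalently: the fibres of `Fix` refine a partition of the cube into subcubes on which `f` is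
constant, with `Fix x` the fixed coordinates of the subcube of `x`).  Then the level-one sum of `f`
is at most the square root of the average of `|Fix x|`. -/
theorem result (n : ℕ) (f : (Fin n → Bool) → ℝ) (hf : ∀ x, f x = 1 ∨ f x = -1)
    (Fix : (Fin n → Bool) → Finset (Fin n))
    (hflip : ∀ x i, i ∉ Fix x →
      Fix (Function.update x i (!x i)) = Fix x ∧ f (Function.update x i (!x i)) = f x) :
    ∑ i, (∑ x, f x * (if x i then (1 : ℝ) else -1)) / 2 ^ n
      ≤ Real.sqrt ((∑ x, ((Fix x).card : ℝ)) / 2 ^ n) := by
  have hflip' : ∀ x i, i ∉ Fix x → Fix (flip i x) = Fix x ∧ f (flip i x) = f x := hflip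
  have hsq : ∀ (x : Fin n → Bool) (i : Fin n), sg x i * sg x i = 1 := by
    intro x i; unfold sg; cases x i <;> simp
  -- Step 1: coordinates outside `Fix x` do not contribute.
  have step1 : ∀ i, ∑ x, f x * sg x i = ∑ x, if i ∈ Fix x then f x * sg x i else 0 := by
    intro i
    have : ∑ x, (if i ∈ Fix x then 0 else f x * sg x i) = 0 := by
      refine sum_flip_zero i _ (fun x => ?_)
      by_cases h : i ∈ Fix x
      · have h' : i ∈ Fix (flip i x) := by
          by_contra hn
          have := (hflip' (flip i x) i hn).1
          rw [flip_flip] at this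
          rw [this] at h; exact hn h
        simp [h, h']
      · have := hflip' x i h
        simp [this.1, h, this.2, sg_flip_self]
    have h2 : ∑ x, f x * sg x i = ∑ x, ((if i ∈ Fix x then f x * sg x i else 0)
        + (if i ∈ Fix x then 0 else f x * sg x i)) := by
      refine Finset.sum_congr rfl (fun x _ => ?_)
      by_cases h : i ∈ Fix x <;> simp [h]
    rw [h2, Finset.sum_add_distrib, this, add_zero]
  -- The partial linear form.
  set A : (Fin n → Bool) → ℝ := fun x => ∑ i ∈ Fix x, sg x i with hA
  have step1' : ∑ i, ∑ x, f x * sg x i = ∑ x, f x * A x := by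
    calc ∑ i, ∑ x, f x * sg x i = ∑ i, ∑ x, (if i ∈ Fix x then f x * sg x i else 0) :=
          Finset.sum_congr rfl (fun i _ => step1 i)
      _ = ∑ x, ∑ i, (if i ∈ Fix x then f x * sg x i else 0) := Finset.sum_comm
      _ = ∑ x, f x * A x := by
          refine Finset.sum_congr rfl (fun x _ => ?_)
          rw [hA, Finset.mul_sum, ← Finset.sum_filter]
          congr 1
          ext i; simp
  -- Step 2: the cross terms vanish.
  have cross : ∀ i k, i ≠ k →
      ∑ x, (if i ∈ Fix x ∧ k ∈ Fix x then sg x i * sg x k else 0) = 0 := by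
    intro i k hik
    have h0 : ∑ x, sg x i * sg x k = 0 :=
      sum_flip_zero i _ (fun x => by rw [sg_flip_self, sg_flip_ne hik.symm]; ring)
    have h1 : ∑ x, (if i ∈ Fix x then 0 else sg x i * sg x k) = 0 := by
      refine sum_flip_zero i _ (fun x => ?_)
      by_cases h : i ∈ Fix x
      · have h' : i ∈ Fix (flip i x) := by
          by_contra hn
          have := (hflip' (flip i x) i hn).1
          rw [flip_flip] at this
          rw [this] at h; exact hn h
        simp [h, h']
      · have := hflip' x i h
        simp [this.1, h, sg_flip_self, sg_flip_ne hik.symm]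
    have h2 : ∑ x, (if i ∈ Fix x ∧ k ∉ Fix x then sg x i * sg x k else 0) = 0 := by
      refine sum_flip_zero k _ (fun x => ?_)
      by_cases hk : k ∈ Fix x
      · have hk' : k ∈ Fix (flip k x) := by
          by_contra hn
          have := (hflip' (flip k x) k hn).1
          rw [flip_flip] at this
          rw [this] at hk; exact hn hk
        simp [hk, hk']
      · have := hflip' x k hk
        by_cases hi : i ∈ Fix x
        · simp [this.1, hi, hk, sg_flip_self, sg_flip_ne hik]
        · simp [this.1, hi]
    have hsplit : ∑ x, sg x i * sg x k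
        = ∑ x, ((if i ∈ Fix x ∧ k ∈ Fix x then sg x i * sg x k else 0)
          + (if i ∈ Fix x then 0 else sg x i * sg x k)
          + (if i ∈ Fix x ∧ k ∉ Fix x then sg x i * sg x k else 0)) := by
      refine Finset.sum_congr rfl (fun x _ => ?_)
      by_cases hi : i ∈ Fix x <;> by_cases hk : k ∈ Fix x <;> simp [hi, hk]
    rw [Finset.sum_add_distrib, Finset.sum_add_distrib, h1, h2, h0] at hsplit
    linarith
  have step2 : ∑ x, A x * A x = ∑ x, ((Fix x).card : ℝ) := by
    have hexp : ∀ x, A x * A x = ∑ i, ∑ k,
        (if i ∈ Fix x ∧ k ∈ Fix x then sg x i * sg x k else 0) := by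
      intro x
      rw [hA]
      simp only
      rw [Finset.sum_mul_sum]
      have : ∑ i, ∑ k, (if i ∈ Fix x ∧ k ∈ Fix x then sg x i * sg x k else 0)
          = ∑ i, if i ∈ Fix x then ∑ k ∈ Fix x, sg x i * sg x k else 0 := by
        refine Finset.sum_congr rfl (fun i _ => ?_)
        by_cases hi : i ∈ Fix x
        · simp only [hi, true_and, if_true]
          rw [← Finset.sum_filter]
          congr 1
          ext k; simp
        · simp [hi]
      rw [this, ← Finset.sum_filter]
      congr 1
      ext i; simp
    calc ∑ x, A x * A x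
        = ∑ x, ∑ i, ∑ k, (if i ∈ Fix x ∧ k ∈ Fix x then sg x i * sg x k else 0) :=
          Finset.sum_congr rfl (fun x _ => hexp x)
      _ = ∑ i, ∑ k, ∑ x, (if i ∈ Fix x ∧ k ∈ Fix x then sg x i * sg x k else 0) := by
          rw [Finset.sum_comm]
          refine Finset.sum_congr rfl (fun i _ => ?_)
          rw [Finset.sum_comm]
      _ = ∑ i, ∑ x, (if i ∈ Fix x then (1 : ℝ) else 0) := by
          refine Finset.sum_congr rfl (fun i _ => ?_)
          rw [Finset.sum_eq_single i]
          · refine Finset.sum_congr rfl (fun x _ => ?_)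
            by_cases hi : i ∈ Fix x <;> simp [hi, hsq]
          · intro k _ hk
            exact cross i k hk.symm
          · simp
      _ = ∑ x, ((Fix x).card : ℝ) := by
          rw [Finset.sum_comm]
          refine Finset.sum_congr rfl (fun x _ => ?_)
          rw [← Finset.sum_filter]
          simp
  -- Step 3: Cauchy - Schwarz.
  have hf2 : ∑ x : Fin n → Bool, f x * f x = 2 ^ n := by
    have : ∀ x, f x * f x = 1 := by
      intro x; rcases hf x with h | h <;> rw [h] <;> norm_num
    simp [this, Finset.card_univ]
  have cs : (∑ x, f x * A x) ^ 2 ≤ 2 ^ n * ∑ x, ((Fix x).card : ℝ) := by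
    have := Finset.sum_mul_sq_le_sq_mul_sq Finset.univ f A
    calc (∑ x, f x * A x) ^ 2 ≤ (∑ x, f x ^ 2) * ∑ x, A x ^ 2 := this
      _ = 2 ^ n * ∑ x, ((Fix x).card : ℝ) := by
          rw [← step2, ← hf2]
          congr 1 <;> exact Finset.sum_congr rfl (fun x _ => by ring)
  have hpow : (0 : ℝ) < 2 ^ n := by positivity
  have hV : ∑ i, (∑ x, f x * (if x i then (1 : ℝ) else -1)) / 2 ^ n
      = (∑ x, f x * A x) / 2 ^ n := by
    rw [← step1', Finset.sum_div]
    rfl
  rw [hV]
  apply Real.le_sqrt_of_sq_le
  rw [div_pow, div_le_div_iff₀ (by positivity) hpow]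
  have e : ((2 : ℝ) ^ n) ^ 2 = 2 ^ n * 2 ^ n := by ring
  rw [e]
  nlinarith [cs, hpow]

end Vale.Agent.Results.P047.PartitionBound
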